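import Vale.Agent.P181.O2.Cnt

set_option autoImplicit false

/-!
# P181, O2, counting half: (G), the gain
-/

namespace Vale.Agent.P181.O2.H99

/-- Double counting: fibres are described by the data `D`. -/
lemma fib {ι τ δ : Type*} [DecidableEq τ] (S : Finset ι) (T : Finset τ) (D : Finset δ)
    (F : ι → τ) (dat : ι → δ) (f : τ → ℕ) (hF : ∀ i ∈ S, F i ∈ T) (hd : ∀ i ∈ S, dat i ∈ D)
    (inj : ∀ i ∈ S, ∀ j ∈ S, F i = F j → dat i = dat j → i = j) :
    ∑ i ∈ S, f (F i) ≤ D.card * ∑ t ∈ T, f t := by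
  rw [← Finset.sum_fiberwise_of_maps_to hF, Finset.mul_sum]
  refine Finset.sum_le_sum fun t _ => ?_
  have h1 : ∑ i ∈ S.filter (fun i => F i = t), f (F i) =
      (S.filter (fun i => F i = t)).card * f t := by
    rw [Finset.sum_congr rfl (g := fun _ => f t) (fun i hi => by rw [(Finset.mem_filter.1 hi).2]),
      Finset.sum_const, smul_eq_mul]
  rw [h1]
  refine Nat.mul_le_mul_right _ ?_
  refine Finset.card_le_card_of_injOn dat (fun i hi => ?_) fun i hi j hj h => ?_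
  · exact hd i (Finset.mem_filter.1 hi).1
  · have hi' := Finset.mem_filter.1 hi
    have hj' := Finset.mem_filter.1 hj
    exact inj i hi'.1 j hj'.1 (hi'.2.trans hj'.2.symm) h

lemma sum_add (U : Multiset (ℕ × ℕ)) :
    (U.map fun p => p.1 + p.2).sum = (U.map Prod.fst).sum + (U.map Prod.snd).sum :=
  Multiset.sum_map_add

lemma le_fst {U : Multiset (ℕ × ℕ)} {p : ℕ × ℕ} (h : p ∈ U) : p.1 ≤ (U.map Prod.fst).sum :=
  Multiset.le_sum_of_mem (Multiset.mem_map_of_mem _ h)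

lemma le_snd {U : Multiset (ℕ × ℕ)} {p : ℕ × ℕ} (h : p ∈ U) : p.2 ≤ (U.map Prod.snd).sum :=
  Multiset.le_sum_of_mem (Multiset.mem_map_of_mem _ h)

lemma card_le {U : Multiset (ℕ × ℕ)} (h : (0, 0) ∉ U) :
    Multiset.card U ≤ (U.map Prod.fst).sum + (U.map Prod.snd).sum := by
  rw [← sum_add]
  have h1 := Multiset.card_nsmul_le_sum (s := U.map fun p => p.1 + p.2) (a := 1) (by
    intro x hx
    obtain ⟨p, hp, rfl⟩ := Multiset.mem_map.1 hx
    by_contra hc
    have h2 : p = (0, 0) := Prod.ext (by simp; omega) (by simp; omega)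
    exact h (h2 ▸ hp))
  simpa using h1

/-- The membership in `US`. -/
lemma mem_US {N t : ℕ} {U : Multiset (ℕ × ℕ)} :
    U ∈ US N t ↔ (0, 0) ∉ U ∧ (U.map Prod.fst).sum = N ∧ (U.map Prod.snd).sum = t := by
  classical
  unfold US
  rw [Finset.mem_filter, Multiset.mem_toFinset, Multiset.mem_powerset]
  refine ⟨fun h => h.2, fun h => ⟨?_, h⟩⟩
  rw [Multiset.le_iff_count]
  intro p
  by_cases hp : p ∈ U
  · have h1 : p ∈ Finset.range (N + 1) ×ˢ Finset.range (t + 1) := by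
      rw [Finset.mem_product, Finset.mem_range, Finset.mem_range]
      have a1 := le_fst hp
      have a2 := le_snd hp
      rw [h.2.1] at a1
      rw [h.2.2] at a2
      omega
    rw [Multiset.count_nsmul, Multiset.count_eq_one_of_mem (Finset.nodup _) h1, mul_one]
    refine (Multiset.count_le_card _ _).trans ?_
    have := card_le h.1
    rw [h.2.1, h.2.2] at this
    exact this
  · rw [Multiset.count_eq_zero_of_notMem hp]
    exact Nat.zero_le _

/-- Two free colours. -/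
lemma colours {U : Multiset (ℕ × ℕ)} {t : ℕ} (h : (U.map Prod.snd).sum = t) :
    ∃ x x' : ℕ, 1 ≤ x ∧ x ≤ t + 2 ∧ 1 ≤ x' ∧ x' ≤ t + 2 ∧ x ≠ x' ∧
      ∀ p ∈ U, 0 < p.2 → p.1 ≠ x ∧ p.1 ≠ x' := by
  classical
  set W := U.filter (fun p => 0 < p.2) with hW
  have h1 : Multiset.card W ≤ t := by
    have h2 := Multiset.card_nsmul_le_sum (s := W.map Prod.snd) (a := 1) (by
      intro x hx
      obtain ⟨p, hp, rfl⟩ := Multiset.mem_map.1 hx
      exact (Multiset.mem_filter.1 hp).2)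
    have h3 : (W.map Prod.snd).sum ≤ (U.map Prod.snd).sum := by
      have h4 := Multiset.filter_add_not (fun p : ℕ × ℕ => 0 < p.2) U
      conv_rhs => rw [← h4]
      rw [Multiset.map_add, Multiset.sum_add]
      exact Nat.le_add_right _ _
    simp only [Multiset.card_map, smul_eq_mul, mul_one] at h2
    omega
  have h4 : (W.map Prod.fst).toFinset.card ≤ t := by
    refine (Multiset.toFinset_card_le _).trans ?_
    rwa [Multiset.card_map]
  have h5 : 1 < (Finset.Icc 1 (t + 2) \ (W.map Prod.fst).toFinset).card := by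
    have := Finset.le_card_sdiff (W.map Prod.fst).toFinset (Finset.Icc 1 (t + 2))
    rw [Nat.card_Icc] at this
    omega
  obtain ⟨x, hx, x', hx', hne⟩ := Finset.one_lt_card.1 h5
  rw [Finset.mem_sdiff, Finset.mem_Icc] at hx hx'
  refine ⟨x, x', hx.1.1, hx.1.2, hx'.1.1, hx'.1.2, hne, fun p hp hp2 => ⟨?_, ?_⟩⟩
  · rintro rfl
    exact hx.2 (Multiset.mem_toFinset.2 (Multiset.mem_map_of_mem _
      (Multiset.mem_filter.2 ⟨hp, hp2⟩)))
  · rintro rfl
    exact hx'.2 (Multiset.mem_toFinset.2 (Multiset.mem_map_of_mem _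
      (Multiset.mem_filter.2 ⟨hp, hp2⟩)))

/-- The shift of all colours. -/
def sh (p : ℕ × ℕ) : ℕ × ℕ := (p.1 + 1, p.2)

lemma sh_inj : Function.Injective sh := by
  intro p p' h
  simp only [sh, Prod.mk.injEq] at h
  exact Prod.ext (by omega) h.2

/-- The final state: shift and one plain letter. -/
def fin' (M : ℕ) (V : Multiset (ℕ × ℕ)) : Multiset (ℕ × ℕ) :=
  (M - ((V.map sh).map Prod.fst).sum, 0) ::ₘ V.map sh

lemma sum_sh_fst (V : Multiset (ℕ × ℕ)) :
    ((V.map sh).map Prod.fst).sum = (V.map Prod.fst).sum + Multiset.card V := by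
  induction V using Multiset.induction with
  | empty => simp
  | cons p V ih =>
    simp only [Multiset.map_cons, Multiset.sum_cons, Multiset.card_cons, ih]
    simp only [sh]
    omega

lemma sum_sh_snd (V : Multiset (ℕ × ℕ)) :
    ((V.map sh).map Prod.snd).sum = (V.map Prod.snd).sum := by
  induction V using Multiset.induction with
  | empty => simp
  | cons p V ih =>
    simp only [Multiset.map_cons, Multiset.sum_cons, ih]
    simp only [sh]

lemma fin'_inj {M : ℕ} {V V' : Multiset (ℕ × ℕ)} (h : fin' M V = fin' M V')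
    (hs : M - ((V.map sh).map Prod.fst).sum = M - ((V'.map sh).map Prod.fst).sum) : V = V' := by
  unfold fin' at h
  rw [hs, Multiset.cons_inj_right] at h
  exact Multiset.map_injective sh_inj h

lemma c2_fin' {c2 : Multiset (ℕ × ℕ) → ℕ} (hP : PlainW c2) (hS : ShiftW c2) (M : ℕ)
    (V : Multiset (ℕ × ℕ)) : c2 V ≤ c2 (fin' M V) := by
  unfold fin'
  rw [hP]
  exact hS V

open scoped Classical in
/-- Membership of the final state. -/
lemma fin'_mem {q s M : ℕ} {V : Multiset (ℕ × ℕ)} (_hq : 10 ≤ q) (hV : ∀ p ∈ V, 1 ≤ p.1 + p.2 ∧ p.1 + p.2 ≤ 12 * q)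
    (hc : Multiset.card V ≤ 12 * q) (hs : (V.map Prod.snd).sum = s)
    (h1 : (V.map Prod.fst).sum + Multiset.card V + 2 ≤ M)
    (h2 : M ≤ (V.map Prod.fst).sum + Multiset.card V + 40 * q) :
    fin' M V ∈ (US M s).filter (fun U => GoodK (60 * q) (szs U)) := by
  classical
  rw [Finset.mem_filter, mem_US]
  have key : ∀ x ∈ szs (fin' M V), 2 ≤ x ∧ x ≤ 60 * q := by
    intro x hx
    obtain ⟨p, hp, rfl⟩ := Multiset.mem_map.1 hx
    rcases Multiset.mem_cons.1 hp with h | h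
    · subst h
      rw [sum_sh_fst]
      simp only
      omega
    · obtain ⟨p', hp', rfl⟩ := Multiset.mem_map.1 h
      have := hV p' hp'
      simp only [sh]
      omega
  refine ⟨⟨?_, ?_, ?_⟩, ⟨?_, fun x hx => (key x hx).2⟩, fun x hx => (key x hx).1⟩
  · intro h
    rcases Multiset.mem_cons.1 h with h | h
    · rw [sum_sh_fst] at h
      have := congrArg Prod.fst h
      simp only at this
      omega
    · obtain ⟨p, -, hp⟩ := Multiset.mem_map.1 h
      have := congrArg Prod.fst hp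
      simp [sh] at this
  · unfold fin'
    rw [Multiset.map_cons, Multiset.sum_cons, sum_sh_fst]
    omega
  · unfold fin'
    rw [Multiset.map_cons, Multiset.sum_cons, sum_sh_snd, hs]
    simp
  · have e : Multiset.card (szs (fin' M V)) = Multiset.card V + 1 := by
      change Multiset.card ((fin' M V).map fun p => p.1 + p.2) = _
      unfold fin'
      rw [Multiset.card_map, Multiset.card_cons, Multiset.card_map]
    rw [e]
    omega

/-- **(G)** -/
theorem gainC : GainC := by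
  classical
  intro c c2 hPull hPlain hShift a q t N w ht2 htq hq ha haw hNw
  choose X X' hX using fun (U : Multiset (ℕ × ℕ)) => colours (U := U) rfl
  set A := (US N t).filter (SmallU q) with hA
  set M := N + 20 * q with hM
  set T := (US M (t - 2)).filter (fun U => GoodK (60 * q) (szs U)) with hT
  -- facts about `U ∈ A`
  have fA : ∀ U ∈ A, (0, 0) ∉ U ∧ (U.map Prod.fst).sum = N ∧ (U.map Prod.snd).sum = t ∧
      (∀ p ∈ U, p.1 ≤ 10 * q) ∧ Multiset.card U ≤ 11 * q := by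
    intro U hU
    have h := Finset.mem_filter.1 hU
    have h1 := mem_US.1 h.1
    exact ⟨h1.1, h1.2.1, h1.2.2, h.2.1, h.2.2⟩
  set B : Multiset (ℕ × ℕ) → Finset (ℕ × ℕ) := fun U => U.toFinset.filter (fun p => 2 ≤ p.2)
    with hB
  set B1 : Multiset (ℕ × ℕ) → Finset (ℕ × ℕ) := fun U => U.toFinset.filter (fun p => 1 ≤ p.2)
    with hB1
  set B2 : Multiset (ℕ × ℕ) → (ℕ × ℕ) → Finset (ℕ × ℕ) :=
    fun U p => (U.erase p).toFinset.filter (fun p => 1 ≤ p.2) with hB2
  set V1 : Multiset (ℕ × ℕ) → (ℕ × ℕ) → Multiset (ℕ × ℕ) :=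
    fun U p => (X U, p.2 - 2) ::ₘ U.erase p with hV1
  set V2 : Multiset (ℕ × ℕ) → (ℕ × ℕ) → (ℕ × ℕ) → Multiset (ℕ × ℕ) :=
    fun U p p' => (X U, p.2 - 1) ::ₘ (X' U, p'.2 - 1) ::ₘ (U.erase p).erase p' with hV2
  have step : ∀ U ∈ A, c U ≤ ∑ p ∈ B U, c2 (fin' M (V1 U p)) +
      ∑ p ∈ B1 U, ∑ p' ∈ B2 U p, c2 (fin' M (V2 U p p')) := by
    intro U hU
    obtain ⟨-, -, -, -, hne, hcol⟩ := hX U
    refine (hPull U (X U) (X' U) hne hcol).trans ?_
    refine Nat.add_le_add ?_ ?_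
    · exact Finset.sum_le_sum fun p _ => c2_fin' hPlain hShift M _
    · exact Finset.sum_le_sum fun p _ => Finset.sum_le_sum fun p' _ =>
        c2_fin' hPlain hShift M _
  -- sums of the parts
  have e1 : ∀ U : Multiset (ℕ × ℕ), ∀ p ∈ U,
      (U.map Prod.fst).sum = p.1 + ((U.erase p).map Prod.fst).sum ∧
      (U.map Prod.snd).sum = p.2 + ((U.erase p).map Prod.snd).sum ∧
      Multiset.card U = Multiset.card (U.erase p) + 1 := by
    intro U p hp
    have h := Multiset.cons_erase hp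
    refine ⟨?_, ?_, ?_⟩
    · conv_lhs => rw [← h]
      rw [Multiset.map_cons, Multiset.sum_cons]
    · conv_lhs => rw [← h]
      rw [Multiset.map_cons, Multiset.sum_cons]
    · conv_lhs => rw [← h]
      rw [Multiset.card_cons]
  have pos : ∀ U ∈ A, ∀ p ∈ U, 1 ≤ p.1 + p.2 ∧ p.1 + p.2 ≤ 12 * q ∧ p.1 ≤ 10 * q ∧ p.2 ≤ t := by
    intro U hU p hp
    obtain ⟨h0, -, h2, h3, -⟩ := fA U hU
    have a1 := h3 p hp
    have a2 := le_snd hp
    rw [h2] at a2
    refine ⟨?_, by omega, a1, a2⟩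
    by_contra hc
    have : p = (0, 0) := Prod.ext (by simp; omega) (by simp; omega)
    exact h0 (this ▸ hp)
  -- first part
  set S1 := A.sigma B with hS1
  have m1 : ∀ z ∈ S1, z.1 ∈ A ∧ z.2 ∈ z.1 ∧ 2 ≤ z.2.2 := by
    intro z hz
    rw [hS1, Finset.mem_sigma] at hz
    have := Finset.mem_filter.1 hz.2
    exact ⟨hz.1, Multiset.mem_toFinset.1 this.1, this.2⟩
  set R := Finset.range (w + 2) with hR
  have hRc : R.card = w + 2 := Finset.card_range _
  have b1 : ∀ z ∈ S1, ((V1 z.1 z.2).map Prod.fst).sum + z.2.1 = N + X z.1 ∧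
      ((V1 z.1 z.2).map Prod.snd).sum = t - 2 ∧ Multiset.card (V1 z.1 z.2) = Multiset.card z.1 := by
    intro z hz
    obtain ⟨hU, hp, hp2⟩ := m1 z hz
    obtain ⟨-, f1, f2, -, -⟩ := fA _ hU
    obtain ⟨g1, g2, g3⟩ := e1 _ _ hp
    have hv : V1 z.1 z.2 = (X z.1, z.2.2 - 2) ::ₘ z.1.erase z.2 := rfl
    rw [hv, Multiset.map_cons, Multiset.sum_cons, Multiset.map_cons, Multiset.sum_cons,
      Multiset.card_cons]
    refine ⟨?_, ?_, ?_⟩
    · change X z.1 + ((z.1.erase z.2).map Prod.fst).sum + z.2.1 = N + X z.1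
      omega
    · change z.2.2 - 2 + ((z.1.erase z.2).map Prod.snd).sum = t - 2
      omega
    · omega
  have P1 : ∑ z ∈ S1, c2 (fin' M (V1 z.1 z.2)) ≤ (R ×ˢ ((R ×ˢ R) ×ˢ R)).card * ∑ U ∈ T, c2 U := by
    refine fib S1 T (R ×ˢ ((R ×ˢ R) ×ˢ R)) (fun z => fin' M (V1 z.1 z.2))
      (fun z => (M - (((V1 z.1 z.2).map sh).map Prod.fst).sum, (z.2, X z.1))) c2 ?_ ?_ ?_
    · intro z hz
      obtain ⟨hU, hp, hp2⟩ := m1 z hz
      obtain ⟨-, f1, f2, f3, f4⟩ := fA _ hU
      obtain ⟨x1, x2, -, -, -, -⟩ := hX z.1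
      obtain ⟨k1, k2, k3⟩ := b1 z hz
      obtain ⟨y1, y2, y3, y4⟩ := pos _ hU _ hp
      rw [f2] at x2
      refine fin'_mem hq ?_ (by omega) k2 (by omega) (by omega)
      intro p' hp'
      rcases Multiset.mem_cons.1 hp' with h | h
      · subst h
        simp only
        omega
      · have := pos _ hU _ (Multiset.mem_of_mem_erase h)
        omega
    · intro z hz
      obtain ⟨hU, hp, hp2⟩ := m1 z hz
      obtain ⟨-, f1, f2, f3, f4⟩ := fA _ hU
      obtain ⟨x1, x2, -, -, -, -⟩ := hX z.1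
      obtain ⟨k1, k2, k3⟩ := b1 z hz
      obtain ⟨y1, y2, y3, y4⟩ := pos _ hU _ hp
      rw [f2] at x2
      simp only [Finset.mem_product, hR, Finset.mem_range, sum_sh_fst]
      omega
    · rintro ⟨U, p⟩ hz ⟨U', p'⟩ hz' h1 h2
      obtain ⟨hU, hp, hp2⟩ := m1 _ hz
      obtain ⟨hU', hp', hp2'⟩ := m1 _ hz'
      simp only [Prod.mk.injEq] at h1 h2 hp hp'
      obtain ⟨h3, h4, h5⟩ := h2
      have h6 := fin'_inj h1 h3
      subst h4
      simp only [hV1] at h6
      rw [h5, Multiset.cons_inj_right] at h6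
      have h7 : U = U' := by
        rw [← Multiset.cons_erase hp, ← Multiset.cons_erase hp', h6]
      subst h7
      rfl
  -- second part
  set S2 := A.sigma (fun U => (B1 U).sigma (B2 U)) with hS2
  have m2 : ∀ z ∈ S2, z.1 ∈ A ∧ z.2.1 ∈ z.1 ∧ 1 ≤ z.2.1.2 ∧ z.2.2 ∈ z.1.erase z.2.1 ∧
      1 ≤ z.2.2.2 := by
    intro z hz
    rw [hS2, Finset.mem_sigma, Finset.mem_sigma] at hz
    have u1 := Finset.mem_filter.1 hz.2.1
    have u2 := Finset.mem_filter.1 hz.2.2
    exact ⟨hz.1, Multiset.mem_toFinset.1 u1.1, u1.2, Multiset.mem_toFinset.1 u2.1, u2.2⟩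
  have b2 : ∀ z ∈ S2, ((V2 z.1 z.2.1 z.2.2).map Prod.fst).sum + z.2.1.1 + z.2.2.1 =
        N + X z.1 + X' z.1 ∧ ((V2 z.1 z.2.1 z.2.2).map Prod.snd).sum = t - 2 ∧
      Multiset.card (V2 z.1 z.2.1 z.2.2) = Multiset.card z.1 := by
    intro z hz
    obtain ⟨hU, hp, hp1, hp', hp1'⟩ := m2 z hz
    obtain ⟨-, f1, f2, -, -⟩ := fA _ hU
    obtain ⟨g1, g2, g3⟩ := e1 _ _ hp
    obtain ⟨i1, i2, i3⟩ := e1 _ _ hp'
    have hv : V2 z.1 z.2.1 z.2.2 = (X z.1, z.2.1.2 - 1) ::ₘ (X' z.1, z.2.2.2 - 1) ::ₘ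
      (z.1.erase z.2.1).erase z.2.2 := rfl
    rw [hv, Multiset.map_cons, Multiset.sum_cons, Multiset.map_cons, Multiset.sum_cons,
      Multiset.map_cons, Multiset.sum_cons, Multiset.map_cons, Multiset.sum_cons,
      Multiset.card_cons, Multiset.card_cons]
    refine ⟨?_, ?_, ?_⟩
    · change X z.1 + (X' z.1 + (((z.1.erase z.2.1).erase z.2.2).map Prod.fst).sum) + z.2.1.1 +
        z.2.2.1 = N + X z.1 + X' z.1
      omega
    · change z.2.1.2 - 1 + (z.2.2.2 - 1 + (((z.1.erase z.2.1).erase z.2.2).map Prod.snd).sum) =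
        t - 2
      omega
    · omega
  have P2 : ∑ z ∈ S2, c2 (fin' M (V2 z.1 z.2.1 z.2.2)) ≤
      (R ×ˢ ((R ×ˢ R) ×ˢ ((R ×ˢ R) ×ˢ (R ×ˢ R)))).card * ∑ U ∈ T, c2 U := by
    refine fib S2 T (R ×ˢ ((R ×ˢ R) ×ˢ ((R ×ˢ R) ×ˢ (R ×ˢ R))))
      (fun z => fin' M (V2 z.1 z.2.1 z.2.2))
      (fun z => (M - (((V2 z.1 z.2.1 z.2.2).map sh).map Prod.fst).sum,
        (z.2.1, (z.2.2, (X z.1, X' z.1))))) c2 ?_ ?_ ?_
    · intro z hz
      obtain ⟨hU, hp, hp1, hp', hp1'⟩ := m2 z hz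
      obtain ⟨-, f1, f2, f3, f4⟩ := fA _ hU
      obtain ⟨x1, x2, x3, x4, -, -⟩ := hX z.1
      obtain ⟨k1, k2, k3⟩ := b2 z hz
      obtain ⟨y1, y2, y3, y4⟩ := pos _ hU _ hp
      obtain ⟨w1, w2, w3, w4⟩ := pos _ hU _ (Multiset.mem_of_mem_erase hp')
      rw [f2] at x2 x4
      refine fin'_mem hq ?_ (by omega) k2 (by omega) (by omega)
      intro r hr
      rcases Multiset.mem_cons.1 hr with h | h
      · subst h
        simp only
        omega
      · rcases Multiset.mem_cons.1 h with h | h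
        · subst h
          simp only
          omega
        · have := pos _ hU _ (Multiset.mem_of_mem_erase (Multiset.mem_of_mem_erase h))
          omega
    · intro z hz
      obtain ⟨hU, hp, hp1, hp', hp1'⟩ := m2 z hz
      obtain ⟨-, f1, f2, f3, f4⟩ := fA _ hU
      obtain ⟨x1, x2, x3, x4, -, -⟩ := hX z.1
      obtain ⟨k1, k2, k3⟩ := b2 z hz
      obtain ⟨y1, y2, y3, y4⟩ := pos _ hU _ hp
      obtain ⟨w1, w2, w3, w4⟩ := pos _ hU _ (Multiset.mem_of_mem_erase hp')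
      rw [f2] at x2 x4
      simp only [Finset.mem_product, hR, Finset.mem_range, sum_sh_fst]
      omega
    · rintro ⟨U, p, p'⟩ hz ⟨U', r, r'⟩ hz' h1 h2
      obtain ⟨hU, hp, hp1, hp', hp1'⟩ := m2 _ hz
      obtain ⟨hU', hr, hr1, hr', hr1'⟩ := m2 _ hz'
      simp only [Prod.mk.injEq] at h1 h2 hp hp' hr hr'
      obtain ⟨h3, h4, h5, h6, h7⟩ := h2
      have h8 := fin'_inj h1 h3
      subst h4
      subst h5
      simp only [hV2] at h8
      rw [h6, Multiset.cons_inj_right, h7, Multiset.cons_inj_right] at h8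
      have h9 : U.erase p = U'.erase p := by
        rw [← Multiset.cons_erase hp', ← Multiset.cons_erase hr', h8]
      have h10 : U = U' := by
        rw [← Multiset.cons_erase hp, ← Multiset.cons_erase hr, h9]
      subst h10
      rfl
  -- the end
  have h1 : ∑ U ∈ A, c U ≤ ∑ z ∈ S1, c2 (fin' M (V1 z.1 z.2)) +
      ∑ z ∈ S2, c2 (fin' M (V2 z.1 z.2.1 z.2.2)) := by
    refine (Finset.sum_le_sum step).trans ?_
    rw [Finset.sum_add_distrib, hS1, hS2, Finset.sum_sigma, Finset.sum_sigma]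
    refine Nat.add_le_add_left (le_of_eq (Finset.sum_congr rfl fun U _ => ?_)) _
    rw [Finset.sum_sigma]
  refine h1.trans ((Nat.add_le_add P1 P2).trans ?_)
  rw [← Nat.add_mul]
  refine Nat.mul_le_mul_right _ ?_
  simp only [Finset.card_product, hRc]
  have h2 : (w + 2) * ((w + 2) * (w + 2) * (w + 2)) ≤ (w + 2) ^ 7 := by
    calc (w + 2) * ((w + 2) * (w + 2) * (w + 2)) = (w + 2) ^ 4 := by ring
      _ ≤ (w + 2) ^ 7 := Nat.pow_le_pow_right (by omega) (by omega)
  have h3 : (w + 2) * ((w + 2) * (w + 2) * ((w + 2) * (w + 2) * ((w + 2) * (w + 2)))) =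
      (w + 2) ^ 7 := by ring
  rw [h3]
  calc (w + 2) * ((w + 2) * (w + 2) * (w + 2)) + (w + 2) ^ 7 ≤ (w + 2) ^ 7 + (w + 2) ^ 7 :=
        Nat.add_le_add_right h2 _
    _ = 2 * (w + 2) ^ 7 := by ring
    _ ≤ (w + 2) * (w + 2) ^ 7 := Nat.mul_le_mul_right _ (by omega)
    _ = (w + 2) ^ 8 := by ring

end Vale.Agent.P181.O2.H99
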